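import Vale.Agent.P207.Q.H130.Desc

/-!
# P207, all dimensions: the flip of frames, `(e₀, e₁, …, e_m) ↦ (-e₀, e₁, …, e_m)`
-/

open scoped Manifold ContDiff ENNReal Topology Matrix
open Bundle MeasureTheory Set Filter

set_option maxSynthPendingDepth 3
set_option linter.unusedSectionVars false

noncomputable section

namespace Vale.Agent.P207.H582

open Vale.Agent.P255 (RMetric)
open Vale.Agent.P207 Vale.Agent.P207.Q Vale.Agent.P207.Q.H892 Vale.Agent.P207.Q.H545
open Vale.Agent.P207.Q.H130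

/-- the signs `(-1, 1, …, 1)` -/
def sgv (m : ℕ) : Fin (m + 1) → ℝ := Fin.cons (-1) fun _ => 1

@[simp] theorem sgv_zero (m : ℕ) : sgv m 0 = -1 := rfl

@[simp] theorem sgv_succ (m : ℕ) (i : Fin m) : sgv m i.succ = 1 := rfl

theorem sgv_mul (m : ℕ) (i : Fin (m + 1)) : sgv m i * sgv m i = 1 := by
  refine Fin.cases ?_ (fun i => ?_) i <;> simp

/-- the matrix `diag (-1, 1, …, 1)` -/
def flipM (m : ℕ) : Matrix (Fin (m + 1)) (Fin (m + 1)) ℝ := Matrix.diagonal (sgv m)

theorem flipM_sq (m : ℕ) : flipM m * flipM m = 1 := by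
  rw [flipM, Matrix.diagonal_mul_diagonal, ← Matrix.diagonal_one]
  congr 1
  funext i
  exact sgv_mul m i

/-- the flip as an orthogonal matrix -/
def flipO (m : ℕ) : Fr.On (m + 1) := ⟨flipM m, (Matrix.mem_orthogonalGroup_iff' (Fin (m + 1)) ℝ).2 (by
  change (flipM m).transpose * flipM m = 1
  rw [show (flipM m).transpose = flipM m from Matrix.diagonal_transpose _, flipM_sq])⟩

theorem flipO_sq (m : ℕ) : flipO m * flipO m = 1 := Subtype.ext (flipM_sq m)

theorem flipM_zero (m : ℕ) : (flipM m).mulVec (Pi.single 0 1) = -Pi.single 0 1 := by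
  ext i
  rw [flipM, Matrix.mulVec_diagonal]
  refine Fin.cases ?_ (fun i => ?_) i <;> simp

theorem flipM_succ (m : ℕ) (i : Fin m) :
    (flipM m).mulVec (Pi.single i.succ 1) = Pi.single i.succ 1 := by
  ext j
  rw [flipM, Matrix.mulVec_diagonal]
  refine Fin.cases ?_ (fun j => ?_) j
  · rw [Pi.single_eq_of_ne (Fin.succ_ne_zero i).symm, mul_zero]
  · simp

theorem flipO_apply (m : ℕ) (a i : Fin (m + 1)) :
    (flipO m).1 a i = if a = i then sgv m i else 0 := by
  change flipM m a i = _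
  rw [flipM, Matrix.diagonal_apply]
  by_cases h : a = i
  · rw [if_pos h, if_pos h, h]
  · rw [if_neg h, if_neg h]

variable {m : ℕ} {M : Type} [TopologicalSpace M] [ChartedSpace (EV (m + 1)) M]
  [IsManifold 𝓘(ℝ, EV (m + 1)) ∞ M] {g : RMetric (EV (m + 1)) M}

/-- the flip of frames -/
def flipF (f : Fr g) : Fr g := Fr.rot (flipO m) f

theorem flipF_flipF (f : Fr g) : flipF (flipF f) = f := by
  unfold flipF
  rw [Fr.rot_rot, flipO_sq, Fr.rot_one]

theorem continuous_flipF : Continuous (flipF : Fr g → Fr g) := by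
  have h1 := Fr.continuous_rot (g := g)
  have h2 : Continuous fun p : Fr g => ((flipO m, p) : Fr.On (m + 1) × Fr g) :=
    Continuous.prodMk_right _
  have h3 := h1.comp h2
  exact h3

theorem Rf_flip (f : Fr g) (i j k l : Fin (m + 1)) : Rf g (flipF f) i j k l =
    sgv m i * (sgv m j * (sgv m k * (sgv m l * Rf g f i j k l))) := by
  rw [flipF, Rf_rot]
  simp only [flipO_apply, ite_mul, zero_mul, Finset.sum_ite_eq', Finset.mem_univ, if_true]

theorem Km_flip (f : Fr g) : Km g (flipF f) = Km g f := by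
  ext i j
  change -Rf g (flipF f) i.succ 0 0 j.succ = -Rf g f i.succ 0 0 j.succ
  rw [Rf_flip]
  simp

theorem hF_neg {n : ℕ} {G : EV n → EV n →L[ℝ] EV n →L[ℝ] ℝ} (ξ : Fin n → ℝ)
    (y : St (Fin n) n) : hF G (-ξ) y = - hF G ξ y := by
  have h1 : ∑ i, (-ξ) i • y.2 i = - ∑ i, ξ i • y.2 i := by
    simp only [Pi.neg_apply, neg_smul, Finset.sum_neg_distrib]
  refine Prod.ext h1 ?_
  funext j
  change - P255.chris G y.1 (∑ i, (-ξ) i • y.2 i) (y.2 j) =
    - - P255.chris G y.1 (∑ i, ξ i • y.2 i) (y.2 j)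
  rw [h1]
  simp only [← P255.chrisB_apply, map_neg, neg_apply]

/-- time reversal of a horizontal flow -/
theorem horNeg {n : ℕ} {M : Type} [TopologicalSpace M] [ChartedSpace (EV n) M]
    [IsManifold 𝓘(ℝ, EV n) ∞ M] {g : RMetric (EV n) M} {ξ : Fin n → ℝ} {Φ : ℝ → Fr g → Fr g}
    (h : IsHorFlow g ξ Φ) : IsHorFlow g (-ξ) (fun t => Φ (-t)) := by
  intro f
  refine ⟨?_, ⟨fun t _ => ?_, fun a t _ ha => ?_⟩⟩
  · simp only [neg_zero]
    exact (h f).1
  · exact ContinuousAt.comp (g := fun t => (Φ t f).1) ((h f).2.cont _ (mem_univ _))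
      continuous_neg.continuousAt
  · have h1 := (h f).2.eqn a (-t) (mem_univ _) ha
    rw [hF_neg]
    have h2 := HasDerivAt.scomp (h := fun t : ℝ => -t) t h1 (hasDerivAt_neg t)
    exact h2.congr_deriv (by rw [neg_one_smul])

variable [T2Space M]

theorem flip_Φ {Φ : ℝ → Fr g → Fr g} (hΦ : IsHorFlow g (Pi.single 0 1) Φ) (t : ℝ) (f : Fr g) :
    flipF (Φ t f) = Φ (-t) (flipF f) := by
  have h1 := hΦ.rot (horNeg hΦ) (flipO m) (flipM_zero m) (-t) f
  simp only [neg_neg] at h1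
  exact h1.symm

/-- the flip commutes with the rotations fixing `e₀` -/
theorem flipF_rot {A : OG (m + 1)} (hA : A ∈ Stab (m + 1)) (p : Fr g) :
    flipF (Fr.rot A p) = Fr.rot A (flipF p) := by
  unfold flipF
  rw [Fr.rot_rot, Fr.rot_rot]
  congr 1
  apply Subtype.ext
  change A.1 * flipM m = flipM m * A.1
  ext i j
  rw [flipM, Matrix.mul_diagonal, Matrix.diagonal_mul]
  refine Fin.cases ?_ (fun i' => ?_) i <;> refine Fin.cases ?_ (fun j' => ?_) j
  · simp [mul_comm]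
  · have h1 := stab_row hA j'.succ
    rw [if_neg (Fin.succ_ne_zero _)] at h1
    rw [h1]; simp
  · have h1 := stab_col hA i'.succ
    rw [if_neg (Fin.succ_ne_zero _)] at h1
    rw [h1]; simp
  · simp

/-- `det (U + U ∘ flip)` is invariant under the rotations fixing `e₀` -/
theorem det_inv {U : Fr g → Matrix (Fin m) (Fin m) ℝ}
    (hU : ∀ A ∈ Stab (m + 1), ∀ p, U (Fr.rot A p) = (low A)ᵀ * U p * low A)
    {A : OG (m + 1)} (hA : A ∈ Stab (m + 1)) (p : Fr g) :
    (U (Fr.rot A p) + U (flipF (Fr.rot A p))).det = (U p + U (flipF p)).det := by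
  rw [flipF_rot hA, hU A hA, hU A hA, ← Matrix.add_mul, ← Matrix.mul_add, Matrix.det_mul,
    Matrix.det_mul]
  have h1 : (low A)ᵀ.det * (low A).det = 1 := by
    rw [← Matrix.det_mul, low_orth hA, Matrix.det_one]
  calc (low A)ᵀ.det * (U p + U (flipF p)).det * (low A).det =
      ((low A)ᵀ.det * (low A).det) * (U p + U (flipF p)).det := by ring
    _ = _ := by rw [h1, one_mul]

/-- the matrix `U + U ∘ flip` of an unstable Riccati tensor is positive definite -/
theorem posDef_S {Φ : ℝ → Fr g → Fr g} (hΦ : IsHorFlow g (Pi.single 0 1) Φ) {lam B : ℝ}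
    {U : Fr g → Matrix (Fin m) (Fin m) ℝ} (hU : IsUR Φ lam B U) (f : Fr g) :
    (U f + U (flipF f))ᵀ = U f + U (flipF f) ∧
      ∀ x : Fin m → ℝ, (2 * lam) * (x ⬝ᵥ x) ≤ x ⬝ᵥ ((U f + U (flipF f)) *ᵥ x) := by
  refine ⟨by rw [Matrix.transpose_add, hU.symm hΦ, hU.symm hΦ], fun x => ?_⟩
  rw [Matrix.add_mulVec, dotProduct_add]
  linarith [hU.lo f x, hU.lo (flipF f) x]

/-- the flipped solution along the flow -/
theorem ric_flip {Φ : ℝ → Fr g → Fr g} (hΦ : IsHorFlow g (Pi.single 0 1) Φ) {lam B : ℝ}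
    {U : Fr g → Matrix (Fin m) (Fin m) ℝ} (hU : IsUR Φ lam B U) (f : Fr g) (r : ℝ) (i j : Fin m) :
    HasDerivAt (fun s => U (flipF (Φ s f)) i j)
      ((U (flipF (Φ r f)) * U (flipF (Φ r f))) i j - Km g (Φ r f) i j) r := by
  have h1 := hU.ric (flipF f) (-r) i j
  have h2 := h1.scomp r (hasDerivAt_neg r)
  have h3 : (fun s => U (flipF (Φ s f)) i j) =
      (fun s => U (Φ s (flipF f)) i j) ∘ Neg.neg := by
    funext s
    simp only [Function.comp, flip_Φ hΦ]
  rw [h3]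
  refine h2.congr_deriv ?_
  rw [flip_Φ hΦ, ← Km_flip (Φ r f), flip_Φ hΦ]
  simp

end Vale.Agent.P207.H582
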