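import Vale.Agent.P207.H582.MatL
import Vale.Agent.P207.H582.Flip
import Vale.Agent.P207.Q.FrSys3
import Vale.Agent.P207.Q.H665.Dense

/-!
# P207, all dimensions: `det (U + U ∘ flip)` along the frame flow, and the normalised solution of the
cohomological equation
-/

open scoped Manifold ContDiff ENNReal Topology Matrix
open Bundle MeasureTheory Set Filter

set_option maxSynthPendingDepth 3
set_option linter.unusedSectionVars false

noncomputable section

namespace Vale.Agent.P207.H582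

open Vale.Agent.P255 (RMetric)
open Vale.Agent.P207 Vale.Agent.P207.Q Vale.Agent.P207.Q.H892 Vale.Agent.P207.Q.H545
open Vale.Agent.P207.Q.H130

variable {m : ℕ} {M : Type} [TopologicalSpace M] [ChartedSpace (EV (m + 1)) M]
  [IsManifold 𝓘(ℝ, EV (m + 1)) ∞ M] [T2Space M] {g : RMetric (EV (m + 1)) M}
  {Φ : ℝ → Fr g → Fr g} {lam B : ℝ} {U : Fr g → Matrix (Fin m) (Fin m) ℝ}

theorem det_S_ge (hΦ : IsHorFlow g (Pi.single 0 1) Φ) (hU : IsUR Φ lam B U) (f : Fr g) :
    (2 * lam) ^ m ≤ (U f + U (flipF f)).det := by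
  obtain ⟨h1, h2⟩ := posDef_S hΦ hU f
  have h3 := det_ge h1 (by linarith [hU.pos]) h2
  rwa [Fintype.card_fin] at h3

theorem det_S_pos (hΦ : IsHorFlow g (Pi.single 0 1) Φ) (hU : IsUR Φ lam B U) (f : Fr g) :
    0 < (U f + U (flipF f)).det :=
  lt_of_lt_of_le (pow_pos (by linarith [hU.pos]) m) (det_S_ge hΦ hU f)

theorem posDef_S' (hΦ : IsHorFlow g (Pi.single 0 1) Φ) (hU : IsUR Φ lam B U) (f : Fr g) :
    (U f + U (flipF f)).PosDef := by
  obtain ⟨h1, h2⟩ := posDef_S hΦ hU f
  exact posDef_of_lower h1 (by linarith [hU.pos]) h2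

/-- the derivative of `det (U + U ∘ flip)` along the flow -/
theorem hasDerivAt_detS (hΦ : IsHorFlow g (Pi.single 0 1) Φ) (hU : IsUR Φ lam B U) (f : Fr g)
    (r : ℝ) : HasDerivAt (fun s => (U (Φ s f) + U (flipF (Φ s f))).det)
      ((U (Φ r f) + U (flipF (Φ r f))).det * ((U (flipF (Φ r f))).trace - (U (Φ r f)).trace)) r := by
  have h1 : ∀ i j, HasDerivAt (fun s => (U (Φ s f) + U (flipF (Φ s f))) i j)
      ((U (flipF (Φ r f)) * U (flipF (Φ r f)) - U (Φ r f) * U (Φ r f)) i j) r := by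
    intro i j
    have a := (hU.ric f r i j).fun_add (ric_flip hΦ hU f r i j)
    refine a.congr_deriv ?_
    rw [Matrix.sub_apply]
    ring
  refine (hasDerivAt_det h1).congr_deriv ?_
  rw [trace_adj]

/-- `det (U + U ∘ flip)` as a continuous function on the unit tangent bundle -/
theorem exists_detS [CompactSpace M] (hΦ : IsHorFlow g (Pi.single 0 1) Φ) (hU : IsUR Φ lam B U)
    (hc : Continuous U) :
    ∃ d : C(UT g, ℝ), ∀ f : Fr g, d (f.ut 0) = (U f + U (flipF f)).det :=
  exists_desc (g := g) (⟨fun f => (U f + U (flipF f)).det,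
    (hc.add (hc.comp continuous_flipF)).matrix_det⟩ : C(Fr g, ℝ))
    (fun _ hA f => det_inv (fun _ hA f => hU.rot hΦ hA f) hA f)

/-- **R18**: the normalised solution, from a continuous solution and the density of an orbit -/
theorem exists_r [CompactSpace M] (hΦ : IsHorFlow g (Pi.single 0 1) Φ)
    (hcont : Continuous fun q : ℝ × Fr g => Φ q.1 q.2) (hU : IsUR Φ lam B U)
    {t S : C(UT g, ℝ)} (ht : ∀ f : Fr g, t (f.ut 0) = (U f).trace)
    (hS : ∀ f : Fr g, S (f.ut 0) = (U f + U (flipF f)).det) {h : ℝ}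
    (hconst : ∀ F : C(UT g, ℝ), (∀ T (f : Fr g), F ((Φ T f).ut 0) = F (f.ut 0)) →
      ∃ c, ∀ v, F v = c) (r : C(UT g, ℝ))
    (hr : ∀ f T, r ((Φ T f).ut 0) - r (f.ut 0) =
      h * T - ∫ s in (0 : ℝ)..T, t ((Φ s f).ut 0)) :
    ∃ r' : C(UT g, ℝ), (∀ f T, r' ((Φ T f).ut 0) - r' (f.ut 0) =
        h * T - ∫ s in (0 : ℝ)..T, t ((Φ s f).ut 0)) ∧
      ∀ f : Fr g, S (f.ut 0) = Real.exp (r' (f.ut 0) + r' ((flipF f).ut 0)) := by
  have hut : Continuous fun f : Fr g => f.ut 0 := Fr.continuous_ut 0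
  have hSpos : ∀ f : Fr g, 0 < S (f.ut 0) := fun f => by rw [hS]; exact det_S_pos hΦ hU f
  have hdt : ∀ f s, HasDerivAt (fun s => r ((Φ s f).ut 0)) (h - t ((Φ s f).ut 0)) s := by
    intro f s
    have hc : Continuous fun s => t ((Φ s f).ut 0) :=
      t.continuous.comp (hut.comp (hcont.comp (Continuous.prodMk_left f)))
    have h1 : (fun s => r ((Φ s f).ut 0)) =
        fun s => r (f.ut 0) + (h * s - ∫ u in (0 : ℝ)..s, t ((Φ u f).ut 0)) := by
      funext T
      rw [← hr f T]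
      ring
    rw [h1]
    have h2 : HasDerivAt (fun s => ∫ u in (0 : ℝ)..s, t ((Φ u f).ut 0))
        (t ((Φ s f).ut 0)) s :=
      intervalIntegral.integral_hasDerivAt_right (hc.intervalIntegrable _ _)
        (hc.stronglyMeasurableAtFilter _ _) hc.continuousAt
    have h3 := ((hasDerivAt_id s).const_mul h).sub h2
    simpa using h3.const_add (r (f.ut 0))
  have hdf : ∀ f s, HasDerivAt (fun s => r ((flipF (Φ s f)).ut 0))
      (t ((flipF (Φ s f)).ut 0) - h) s := by
    intro f s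
    have h1 := (hdt (flipF f) (-s)).scomp s (hasDerivAt_neg s)
    have h2 : (fun s => r ((flipF (Φ s f)).ut 0)) =
        (fun s => r ((Φ s (flipF f)).ut 0)) ∘ Neg.neg := by
      funext u
      simp only [Function.comp, flip_Φ hΦ]
    rw [h2]
    refine h1.congr_deriv ?_
    rw [flip_Φ hΦ]
    simp
  have hdS : ∀ f s, HasDerivAt (fun s => Real.log (S ((Φ s f).ut 0)))
      (t ((flipF (Φ s f)).ut 0) - t ((Φ s f).ut 0)) s := by
    intro f s
    have h0 := hSpos (Φ s f)
    have h1 : HasDerivAt (fun s => S ((Φ s f).ut 0))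
        (S ((Φ s f).ut 0) * (t ((flipF (Φ s f)).ut 0) - t ((Φ s f).ut 0))) s := by
      have e : (fun s => S ((Φ s f).ut 0)) = fun s => (U (Φ s f) + U (flipF (Φ s f))).det := by
        funext s
        exact hS _
      rw [e, hS, ht, ht]
      exact hasDerivAt_detS hΦ hU f s
    refine (h1.log h0.ne').congr_deriv ?_
    field_simp
  have hFc : Continuous fun f : Fr g =>
      Real.log (S (f.ut 0)) - r (f.ut 0) - r ((flipF f).ut 0) := by
    refine (Continuous.sub (Continuous.log ?_ fun f => (hSpos f).ne') ?_).sub ?_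
    · exact S.continuous.comp hut
    · exact r.continuous.comp hut
    · exact r.continuous.comp (hut.comp continuous_flipF)
  obtain ⟨F, hF⟩ := exists_desc (g := g) (⟨_, hFc⟩ : C(Fr g, ℝ)) (fun A hA f => by
    change Real.log (S ((Fr.rot A f).ut 0)) - r ((Fr.rot A f).ut 0) -
      r ((flipF (Fr.rot A f)).ut 0) = _
    rw [flipF_rot hA, H665.ut_rot hA, H665.ut_rot hA]
    rfl)
  have hF' : ∀ f : Fr g, F (f.ut 0) =
      Real.log (S (f.ut 0)) - r (f.ut 0) - r ((flipF f).ut 0) := hF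
  obtain ⟨c, hc⟩ := hconst F (fun T f => by
    rw [hF', hF']
    have h1 : ∀ s, HasDerivAt (fun s => Real.log (S ((Φ s f).ut 0)) - r ((Φ s f).ut 0) -
        r ((flipF (Φ s f)).ut 0)) 0 s := fun s => by
      refine (((hdS f s).fun_sub (hdt f s)).fun_sub (hdf f s)).congr_deriv ?_
      ring
    have h2 := is_const_of_deriv_eq_zero (fun s => (h1 s).differentiableAt)
      (fun s => (h1 s).deriv) T 0
    simp only [hΦ.zero] at h2
    exact h2)
  refine ⟨r + ContinuousMap.const _ (c / 2), fun f T => ?_, fun f => ?_⟩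
  · rw [← hr f T]
    simp
  · have h1 := hF' f
    rw [hc] at h1
    have h2 : Real.log (S (f.ut 0)) = (r (f.ut 0) + c / 2) + (r ((flipF f).ut 0) + c / 2) := by
      linarith
    change S (f.ut 0) = Real.exp ((r (f.ut 0) + c / 2) + (r ((flipF f).ut 0) + c / 2))
    rw [← h2, Real.exp_log (hSpos f)]

end Vale.Agent.P207.H582
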