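import Vale.Agent.P207.H582.FinRic
import Vale.Agent.P207.H582.MD
import Vale.Agent.P207.Q.H413.Const
import Vale.Agent.P207.Q.H916.Fr8
import Vale.Agent.P207.BlkL4

/-!
# P207, all dimensions: the final step

`U` = the continuous unstable Riccati tensor on the frame bundle, `S = det (U + U ∘ flip)`,
`log S = ρ + ρ ∘ flip`, `∫ tr U = h`. If `∫ e^ρ / S ≤ (m / (2 h)) ^ (m / 2)`, the curvature is
constant.
-/

open scoped Manifold ContDiff ENNReal Topology Matrix
open Bundle MeasureTheory Set Filter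

set_option maxSynthPendingDepth 3
set_option linter.unusedSectionVars false

noncomputable section

namespace Vale.Agent.P207.H582

open Vale.Agent.P255 (RMetric)
open Vale.Agent.P207 Vale.Agent.P207.Q Vale.Agent.P207.Q.H892 Vale.Agent.P207.Q.H545
open Vale.Agent.P207.Q.H130
open Vale.Agent.P207F (ConstCurvature)

section Set

variable {n : ℕ} {M : Type} [TopologicalSpace M] [ChartedSpace (EV n) M]
  [IsManifold 𝓘(ℝ, EV n) ∞ M] [CompactSpace M] [T2Space M] {g : RMetric (EV n) M}

/-- a bound of all spherical averages bounds the integral against the Liouville measure -/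
theorem integral_le_of_sphAvg [MeasurableSpace M] [BorelSpace M] [SecondCountableTopology M]
    {μ : Measure M} {m : Measure (UT g)} (hμ : IsRiemVol g μ) (hm : IsLiouville g μ m)
    {a : UT g → ℝ} (ha : Continuous a) {c : ℝ} (hc : 0 ≤ c) (h : ∀ x, sphAvg g a x ≤ c) :
    ∫ p, a p ∂m ≤ c := by
  have := hμ.isFiniteMeasure
  rw [hm.2 a ha]
  refine div_le_of_le_mul₀ measureReal_nonneg hc ?_
  by_cases hi : Integrable (sphAvg g a) μ
  · calc ∫ x, sphAvg g a x ∂μ ≤ ∫ _, c ∂μ := integral_mono hi (integrable_const c) h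
      _ = c * μ.real univ := by rw [integral_const, smul_eq_mul, mul_comm]
  · rw [integral_undef hi]
    positivity

/-- the setting on the frame bundle -/
theorem exists_setting [NeZero n] [ConnectedSpace M] [MeasurableSpace M] [BorelSpace M]
    {φ : ℝ → UT g → UT g} {μ : Measure M} {m : Measure (UT g)}
    (hφ : IsGeoFlow g φ) (hμ : IsRiemVol g μ) (hm : IsLiouville g μ m) :
    SecondCountableTopology M ∧ Nonempty (Fr g) ∧
      (∀ t, MeasurePreserving (φ t) m m) ∧
      ∃ mP : Measure (Fr g), IsMP m mP ∧ IsProbabilityMeasure mP ∧ mP.IsOpenPosMeasure := by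
  have : SecondCountableTopology M := ChartedSpace.secondCountable_of_sigmaCompact (EV n) M
  obtain ⟨x₀⟩ := (inferInstance : Nonempty M)
  obtain ⟨f₀, -⟩ := H892.exists_frame g x₀
  have : Nonempty (Fr g) := ⟨f₀⟩
  have hmp := fun t => IsLiouville.measurePreserving (NeZero.one_le) hφ hμ hm t
  obtain ⟨mP, hP⟩ := exists_isMP hμ hm
  exact ⟨inferInstance, inferInstance, hmp, mP, hP, hP.prob, hP.openPos⟩

end Set

variable {m : ℕ} {M : Type} [TopologicalSpace M] [ChartedSpace (EV (m + 1)) M]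
  [IsManifold 𝓘(ℝ, EV (m + 1)) ∞ M] [CompactSpace M] [T2Space M] {g : RMetric (EV (m + 1)) M}

/-- **The final step on the frame bundle.** -/
theorem const_of_frames (h2 : 2 ≤ m) [MeasurableSpace M] [BorelSpace M]
    [SecondCountableTopology M]
    {mP : Measure (Fr g)} [IsProbabilityMeasure mP] [mP.IsOpenPosMeasure]
    (hrot : ∀ A : Fr.On (m + 1), MeasurePreserving (Fr.rot A : Fr g → Fr g) mP mP)
    {Φ : ℝ → Fr g → Fr g} (hΦ : IsHorFlow g (Pi.single 0 1) Φ)
    {lam B : ℝ} {U : Fr g → Matrix (Fin m) (Fin m) ℝ} (hU : IsUR Φ lam B U)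
    (hUc : Continuous U) {ρ : Fr g → ℝ} (hρ : Continuous ρ) {h : ℝ}
    (hlog : ∀ f, Real.log (U f + U (flipF f)).det = ρ f + ρ (flipF f))
    (hint : ∫ f, (U f).trace ∂mP = h)
    (hF : ∫ f, Real.exp (ρ f) / (U f + U (flipF f)).det ∂mP ≤ cst m (2 * h / m)) :
    ConstCurvature g ((h / m) ^ 2) := by
  have hne : Nonempty (Fin m) := ⟨⟨0, by omega⟩⟩
  have hmp := hrot (flipO m)
  have hσ : ∀ F : Fr g → ℝ, Continuous F → ∫ x, F (flipF x) ∂mP = ∫ x, F x ∂mP := by
    intro F _
    have h1 := hmp.integral_comp' (f := (MeasurableEquiv.mk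
      ⟨flipF, flipF, flipF_flipF, flipF_flipF⟩ continuous_flipF.measurable
        continuous_flipF.measurable : Fr g ≃ᵐ Fr g)) (g := F)
    exact h1
  obtain ⟨hh, hS⟩ := S_const (m := mP) (σ := (flipF : Fr g → Fr g)) continuous_flipF flipF_flipF
    hσ (U := U) (r := ρ) hUc hρ (posDef_S' hΦ hU) hlog hint (by rwa [Fintype.card_fin])
  rw [Fintype.card_fin] at hS
  have hm0 : (0 : ℝ) < m := by exact_mod_cast (by omega : 0 < m)
  have hκ : 2 * h / (m : ℝ) ≠ 0 := by positivity
  have hfin := fun f => (const_of_S (φ := Φ) (σ := (flipF : Fr g → Fr g)) (U := U)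
    (K := fun f => Km g f) (κ := 2 * h / (m : ℝ)) (fun p r i j => hU.ric p r i j)
    (fun f => hΦ.zero f) (fun t f => flip_Φ hΦ t f) (fun f => Km_flip f) hκ hS f).2
  have h01 : (0 : Fin (m + 1)) ≠ (⟨0, by omega⟩ : Fin m).succ := (Fin.succ_ne_zero _).symm
  refine H413.const_of_Rf (i₀ := 0) (i₁ := (⟨0, by omega⟩ : Fin m).succ) h01 fun f => ?_
  have h1 := congrFun (congrFun (hfin f) ⟨0, by omega⟩) ⟨0, by omega⟩
  have e1 : Km g f ⟨0, by omega⟩ ⟨0, by omega⟩ =
      -Rf g f (⟨0, by omega⟩ : Fin m).succ 0 0 (⟨0, by omega⟩ : Fin m).succ := rfl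
  rw [e1] at h1
  simp only [Matrix.smul_apply, Matrix.one_apply_eq, smul_eq_mul, mul_one] at h1
  have e2 : 2 * h / (m : ℝ) / 2 = h / m := by ring
  rw [e2] at h1
  linarith

end Vale.Agent.P207.H582
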