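import Vale.Agent.P207.H582.Fin
import Vale.Agent.P207.C1.Area

/-!
# P207, all dimensions: the final inequality from the bounds of the spherical averages
-/

open scoped Manifold ContDiff ENNReal Topology Matrix
open Bundle MeasureTheory Set Filter

set_option maxSynthPendingDepth 3
set_option linter.unusedSectionVars false

noncomputable section

namespace Vale.Agent.P207.H582

open Vale.Agent.P255 (RMetric)
open Vale.Agent.P207 Vale.Agent.P207.Q Vale.Agent.P207.Q.H892 Vale.Agent.P207.Q.H545
open Vale.Agent.P207.Q.H130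
open Vale.Agent.P207F (ConstCurvature)

/-- the constant of the final inequality -/
theorem cst_eq {m : ℕ} {h : ℝ} (h2 : 0 < m) (hh : 0 < h) :
    cst m (2 * h / m) = Real.sqrt ((m / (2 * h)) ^ m) := by
  have hm0 : (0 : ℝ) < m := by exact_mod_cast h2
  rw [cst_eq_sqrt m (by positivity : (0 : ℝ) < 2 * h / m), inv_div]

/-- the constant of the area bound, divided by the area of the sphere -/
theorem sqrt_div_pow {m : ℕ} {h : ℝ} (hh : 0 < h) :
    Real.sqrt ((2 * m / h) ^ m) / 2 ^ m = Real.sqrt ((m / (2 * h)) ^ m) := by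
  have h1 : (2 * m / h : ℝ) ^ m = (2 ^ m) ^ 2 * (m / (2 * h)) ^ m := by
    rw [← pow_mul, mul_comm m 2, pow_mul, ← mul_pow]
    congr 1
    field_simp
  rw [h1, Real.sqrt_mul (by positivity), Real.sqrt_sq (by positivity)]
  field_simp

variable {m : ℕ} {M : Type} [TopologicalSpace M] [ChartedSpace (EV (m + 1)) M]
  [IsManifold 𝓘(ℝ, EV (m + 1)) ∞ M] [CompactSpace M] [T2Space M] {g : RMetric (EV (m + 1)) M}
  {Φ : ℝ → Fr g → Fr g}

/-- `∫ t = h`, from the cohomological equation -/
theorem integral_t [MeasurableSpace M] [BorelSpace M]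
    {φ : ℝ → UT g → UT g} (hφ : IsGeoFlow g φ) {μ : Measure M} (hμ : IsRiemVol g μ)
    {ν : Measure (UT g)} (hm : IsLiouville g μ ν) (hΦ : IsHorFlow g (Pi.single 0 1) Φ)
    {t r : C(UT g, ℝ)} {h : ℝ}
    (hr : ∀ f T, r ((Φ T f).ut 0) - r (f.ut 0) =
      h * T - ∫ s in (0 : ℝ)..T, t ((Φ s f).ut 0)) : ∫ p, t p ∂ν = h := by
  have := hm.1
  have := compactSpace_UT g
  have hF : MFlow ν φ := Area.mflow (by omega : 1 ≤ m + 1) hφ hμ hm
  set c := ∫ p, t p ∂ν with hc
  have hcoc : ∀ p, r (φ 1 p) - r p = h - ∫ s in (0 : ℝ)..1, t (φ s p) := by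
    intro p
    obtain ⟨f, rfl⟩ := exists_frame_ut p
    have h1 := hr f 1
    simp only [hΦ.ut_eq hφ, mul_one] at h1
    exact h1
  have hti : Integrable t ν :=
    t.continuous.integrable_of_hasCompactSupport (HasCompactSupport.of_compactSpace _)
  have hri : Integrable r ν :=
    r.continuous.integrable_of_hasCompactSupport (HasCompactSupport.of_compactSpace _)
  have hri' : Integrable (fun p => r (φ 1 p)) ν := by
    have h1 := (hF.mp 1).integrable_comp_of_integrable hri
    exact h1
  have h0 : ∫ x, (t x - c) ∂ν = 0 := by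
    rw [integral_sub hti (integrable_const _), integral_const, probReal_univ]
    simp [hc]
  have h2 := hF.integral_WW (w := fun p => t p - c) (K := ‖t‖ + |c|)
    (t.continuous.measurable.sub_const c)
    (fun p => (abs_sub _ _).trans (add_le_add (t.norm_coe_le_norm p) le_rfl)) h0 1
  have h3 : ∀ p, WW φ (fun p => t p - c) 1 p = (h - c) - (r (φ 1 p) - r p) := by
    intro p
    rw [hcoc]
    unfold WW
    have hcont : Continuous fun s : ℝ => t (φ s p) :=
      t.continuous.comp (hφ.continuous.comp (Continuous.prodMk_left p))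
    rw [intervalIntegral.integral_sub (hcont.intervalIntegrable _ _)
      intervalIntegrable_const, intervalIntegral.integral_const]
    simp
  simp_rw [h3] at h2
  have hsub : Integrable (fun p => r (φ 1 p) - r p) ν := hri'.sub hri
  rw [integral_sub (integrable_const _) hsub, integral_sub hri' hri, integral_const,
    probReal_univ, hF.integral_comp 1 r.continuous.aestronglyMeasurable] at h2
  simp at h2
  linarith

/-- **The final inequality, all dimensions.** -/
theorem const_of_mass (h2 : 2 ≤ m) [ConnectedSpace M] [MeasurableSpace M] [BorelSpace M]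
    {φ : ℝ → UT g → UT g} (hφ : IsGeoFlow g φ) {μ : Measure M} (hμ : IsRiemVol g μ)
    {ν : Measure (UT g)} (hm : IsLiouville g μ ν) (hΦ : IsHorFlow g (Pi.single 0 1) Φ)
    {lam B : ℝ} {U : Fr g → Matrix (Fin m) (Fin m) ℝ} (hU : IsUR Φ lam B U)
    (hUc : Continuous U) {t S r : C(UT g, ℝ)} (ht : ∀ f : Fr g, t (f.ut 0) = (U f).trace)
    (hS : ∀ f : Fr g, S (f.ut 0) = (U f + U (flipF f)).det) {h : ℝ} (hh : 0 < h)
    (hr : ∀ f T, r ((Φ T f).ut 0) - r (f.ut 0) =
      h * T - ∫ s in (0 : ℝ)..T, t ((Φ s f).ut 0))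
    (hn : ∀ f : Fr g, S (f.ut 0) = Real.exp (r (f.ut 0) + r ((flipF f).ut 0)))
    (hF : ∀ p : M, sphAvg g (fun v => Real.exp (r v) / S v) p ≤
      Real.sqrt ((m / (2 * h)) ^ m)) :
    ConstCurvature g ((h / m) ^ 2) := by
  obtain ⟨hsc, hne, hmp, mP, hP, hprob, hop⟩ := exists_setting hφ hμ hm
  have hut : Continuous fun f : Fr g => f.ut 0 := (isBdl_ut g).cont
  have hSpos : ∀ p, S p ≠ 0 := by
    intro p
    obtain ⟨f, rfl⟩ := exists_frame_ut p
    rw [hn]
    exact (Real.exp_pos _).ne'
  have hac : Continuous fun p => Real.exp (r p) / S p :=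
    (Real.continuous_exp.comp r.continuous).div S.continuous hSpos
  have hF2 := integral_le_of_sphAvg hμ hm hac (Real.sqrt_nonneg _) hF
  have hpush : ∀ a : UT g → ℝ, Continuous a → ∫ f : Fr g, a (f.ut 0) ∂mP = ∫ p, a p ∂ν := by
    intro a ha
    rw [← hP.ut.map_eq]
    exact (integral_map hP.ut.measurable.aemeasurable ha.aestronglyMeasurable).symm
  refine const_of_frames h2 (mP := mP) hP.rot hΦ hU hUc
    (ρ := fun f => r (f.ut 0)) (r.continuous.comp hut) (h := h) (fun f => ?_) ?_ ?_
  · rw [← hS, hn, Real.log_exp]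
  · rw [← integral_t hφ hμ hm hΦ hr, ← hpush _ t.continuous]
    exact integral_congr_ae (Eventually.of_forall fun f => (ht f).symm)
  · rw [cst_eq (by omega) hh]
    refine le_trans (le_of_eq ?_) hF2
    rw [← hpush _ hac]
    exact integral_congr_ae (Eventually.of_forall fun f => by simp only [hS])

end Vale.Agent.P207.H582
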